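import Vale.Agent.P366.H474.W.B

/-! Kerr-Schild metrics with a general null covector field: the fluxes of the superpotential. -/

open MeasureTheory Metric Filter Topology Set
open scoped ContDiff ENNReal

noncomputable section
namespace Vale.Agent.P366.H474.W

open Vale.Agent.P366 (pd E sphM sphI flux)
open Vale.Agent.P366.H353.N
open Vale.Agent.P366.KSN
open Vale.Agent.P366.Kerr (pt sp indG indK lapse tng con)

variable {n : ℕ} {G : Stmt.Field (n + 1)} {l : Fin (n + 1) → E (n + 1) → ℝ}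
  {V : E (n + 1) → ℝ} {f : E n → ℝ} {D : Stmt.Exterior n} {R q : ℝ} {y : E n}

/-- the superpotential `U^{ac}_b` of the tensor `h` -/
def USh {m : ℕ} (e : Fin m → ℝ) (h : Fin m → Fin m → E m → ℝ) (a c b : Fin m) (x : E m) : ℝ :=
  (e a * e c * (Stmt.pd a (h c b) x - Stmt.pd c (h a b) x) -
    (if a = b then ∑ d, e c * e d * Stmt.pd d (h c d) x else 0) +
    (if c = b then ∑ d, e a * e d * Stmt.pd d (h a d) x else 0)) / 2

/-- `U^{0i}_b` on the slice `t = 0` -/
def Zw (l : Fin (n + 1) → E (n + 1) → ℝ) (V : E (n + 1) → ℝ) (b : Fin (n + 1)) (i : Fin n)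
    (y : E n) : ℝ := USh X1.sgn (hh l V) 0 i.succ b (pt 0 y)

lemma flux_SI (W : Fin n → E n → ℝ) (r : ℝ) :
    flux W r = r ^ (n - 1) * SI fun x => ∑ i, W i (r • x) * ((r • x) i / ‖r • x‖) := rfl

lemma flux_sphInt (W : Fin n → E n → ℝ) (r : ℝ) :
    flux W r = Stmt.sphInt r fun y => ∑ i, W i y * (y i / ‖y‖) := by
  rw [flux_SI, sphInt_SI]

/-- the flux depends only on the values on the sphere -/
lemma flux_congr {W W' : Fin n → E n → ℝ} {r : ℝ} (hr : 0 < r)
    (e : ∀ i, ∀ y : E n, ‖y‖ = r → W i y = W' i y) : flux W r = flux W' r := by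
  rw [flux_SI, flux_SI]
  congr 1
  refine SI_congr fun x hx => Finset.sum_congr rfl fun i _ => ?_
  rw [e i _ (X5.norm_R hr hx)]

lemma dir_cont' (hy : y ≠ 0) (j : Fin n) : ContinuousAt (fun y : E n => y j / ‖y‖) y :=
  X5.dir_cont hy j

lemma flux_cont {W : Fin n → E n → ℝ} {r : ℝ} (hr : 0 < r)
    (hW : ∀ i, ∀ y : E n, ‖y‖ = r → ContinuousAt (W i) y) :
    ContinuousOn (fun x : E n => ∑ i, W i (r • x) * ((r • x) i / ‖r • x‖))
      (sphere (0 : E n) 1) :=
  X5.comp_cont (h := fun y : E n => ∑ i, W i y * (y i / ‖y‖)) fun _ hx =>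
    tendsto_finsetSum _ fun i _ => (hW i _ (X5.norm_R hr hx)).mul
      (X5.dir_cont (smul_ne_zero hr.ne' (ne_zero_of_one hx)) i)

lemma flux_sub {W W' : Fin n → E n → ℝ} {r : ℝ} (hr : 0 < r)
    (hW : ∀ i, ∀ y : E n, ‖y‖ = r → ContinuousAt (W i) y)
    (hW' : ∀ i, ∀ y : E n, ‖y‖ = r → ContinuousAt (W' i) y) :
    flux (fun i y => W i y - W' i y) r = flux W r - flux W' r := by
  rw [flux_SI, flux_SI, flux_SI, ← mul_sub, ← SI_sub (flux_cont hr hW) (flux_cont hr hW')]
  congr 1
  refine SI_congr fun x _ => ?_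
  rw [← Finset.sum_sub_distrib]
  exact Finset.sum_congr rfl fun i _ => by ring

lemma flux_neg {W : Fin n → E n → ℝ} {r : ℝ} :
    flux (fun i y => - W i y) r = - flux W r := by
  rw [flux_SI, flux_SI, ← mul_neg, ← SI_neg]
  congr 1
  refine SI_congr fun x _ => ?_
  rw [← Finset.sum_neg_distrib]
  exact Finset.sum_congr rfl fun i _ => by ring

namespace FarK

variable (h : FarK G l V f D R)
include h

section Point

variable (hy : R < ‖y‖)
include hy

lemma spd_pd (c a b : Fin (n + 1)) :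
    Stmt.pd c (hh l V a b) (pt 0 y) = pd c (hh l V a b) (pt 0 y) :=
  X2.stmt_pd' (hh_cd (h.cl y hy) (h.cV y hy) a b) c

/-- the superpotential on the slice, energy part -/
lemma Z0_eq (i : Fin n) : Zw l V 0 i y =
    (pd i (hb l V 0 0) y - ∑ j : Fin n, pd j (hb l V i.succ j.succ) y) / 2 := by
  unfold Zw USh
  rw [if_pos rfl, if_neg (Fin.succ_ne_zero i), Fin.sum_univ_succ]
  simp only [h.spd_pd hy, X1.sgn0, X1.sgns, ← h.pd_hb hy, hh_symm i.succ 0]
  ring_nf

/-- the superpotential on the slice, momentum part -/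
lemma Zs_eq (j i : Fin n) : Zw l V j.succ i y =
    (-ht l V i.succ j.succ y + pd i (hb l V 0 j.succ) y + kd i j * (ht l V 0 0 y -
      ∑ k : Fin n, pd k (hb l V 0 k.succ) y)) / 2 := by
  have e0 : ∀ a b, pd (0 : Fin (n + 1)) (hh l V a b) (pt 0 y) = ht l V a b y := fun _ _ => rfl
  unfold Zw USh
  rw [if_neg (Fin.succ_ne_zero j).symm, Fin.sum_univ_succ]
  simp only [h.spd_pd hy, X1.sgn0, X1.sgns, ← h.pd_hb hy, e0]
  have e1 : (if i.succ = j.succ then -1 * -1 * ht l V 0 0 y +
      ∑ k : Fin n, -1 * 1 * pd k (hb l V 0 k.succ) y else 0) =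
      kd i j * (ht l V 0 0 y - ∑ k : Fin n, pd k (hb l V 0 k.succ) y) := by
    unfold kd
    by_cases hij : i = j
    · subst hij
      rw [if_pos rfl, if_pos rfl, ← Finset.mul_sum]
      ring
    · rw [if_neg hij, if_neg (fun e => hij (Fin.succ_injective _ e)), zero_mul]
  rw [e1]
  ring

/-- the derivative of the metric far out -/
lemma dg_eq (k i j : Fin n) : Stmt.pd k (fun z => D.g z i j) y =
    pd k (hb l V i.succ j.succ) y := by
  have h1 : (fun z => D.g z i j) =ᶠ[𝓝 y] fun z => kd i j + hb l V i.succ j.succ z := by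
    filter_upwards [far_open hy] with z hz
    rw [h.g_eq hz]
  have d : DifferentiableAt ℝ (fun z => D.g z i j) y :=
    ((D.smooth i j).1.contDiffAt).differentiableAt (by simp)
  rw [X2.stmt_pd d, Vale.Agent.P366.pd_congr h1 k, Vale.Agent.P366.pd_add
    (differentiableAt_const _) ((h.hb_cd hy _ _).differentiableAt (by simp)),
    Vale.Agent.P366.pd_const, zero_add]

/-- the energy flux field, exactly -/
lemma energy_eq (i : Fin n) :
    (∑ j, (Stmt.pd j (fun z => D.g z i j) y - Stmt.pd i (fun z => D.g z j j) y)) / 2 =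
      - Zw l V 0 i y := by
  rw [h.Z0_eq hy, h.pd_hb00 hy]
  simp only [h.dg_eq hy, Finset.sum_sub_distrib]
  ring

/-- the momentum flux field is a curl, up to the linear part of the momentum tensor -/
lemma curl_eq (j i : Fin n) : Zw l V j.succ i y + Pw l V j i y =
    ∑ k, pd k (fun z => (kd i j * hb l V 0 k.succ z - kd k j * hb l V 0 i.succ z) / 2) y := by
  have d : ∀ k : Fin n, DifferentiableAt ℝ (hb l V 0 k.succ) y := fun k =>
    (h.hb_cd hy _ _).differentiableAt (by simp)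
  have e1 : ∀ k, pd k (fun z => (kd i j * hb l V 0 k.succ z - kd k j * hb l V 0 i.succ z) / 2) y =
      (kd i j * pd k (hb l V 0 k.succ) y - kd k j * pd k (hb l V 0 i.succ) y) / 2 := by
    intro k
    have d1 : ContDiffAt ℝ ∞
        (fun z => (kd i j * hb l V 0 k.succ z - kd k j * hb l V 0 i.succ z) / 2) y :=
      ((contDiffAt_const.mul (h.hb_cd hy _ _)).sub
        (contDiffAt_const.mul (h.hb_cd hy _ _))).div_const 2
    rw [← X2.stmt_pd' d1]
    have h1 : T2.HP k (fun z => (1 / 2) * (kd i j * hb l V 0 k.succ z -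
        kd k j * hb l V 0 i.succ z)) ((1 / 2) * (kd i j * Stmt.pd k (hb l V 0 k.succ) y -
        kd k j * Stmt.pd k (hb l V 0 i.succ) y)) y :=
      (((T2.HP.of_diff (d k)).const_mul _).sub ((T2.HP.of_diff (d i)).const_mul _)).const_mul _
    have h2 : (fun z => (kd i j * hb l V 0 k.succ z - kd k j * hb l V 0 i.succ z) / 2) =
        fun z => (1 / 2) * (kd i j * hb l V 0 k.succ z - kd k j * hb l V 0 i.succ z) := by
      funext z; ring
    rw [h2, h1.pd, X2.stmt_pd (d k), X2.stmt_pd (d i)]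
    ring
  simp only [e1]
  have e2 : ∑ k, (kd i j * pd k (hb l V 0 k.succ) y - kd k j * pd k (hb l V 0 i.succ) y) / 2 =
      (kd i j * (∑ k : Fin n, pd k (hb l V 0 k.succ) y) - pd j (hb l V 0 i.succ) y) / 2 := by
    rw [← Finset.sum_div, Finset.sum_sub_distrib, ← Finset.mul_sum]
    congr 2
    simp [kd]
  have e3 : ∑ k, Lw l V k k y = - (∑ k : Fin n, pd k (hb l V 0 k.succ) y) + ht l V 0 0 y / 2 := by
    rw [h.ht00 hy, Finset.sum_div, ← Finset.sum_neg_distrib, ← Finset.sum_add_distrib]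
    exact Finset.sum_congr rfl fun k _ => by unfold Lw; ring
  rw [e2, h.Zs_eq hy]
  unfold Pw
  rw [e3]
  unfold Lw
  rw [ht_symm j.succ i.succ]
  have e4 : kd j i = kd i j := by unfold kd; simp only [eq_comm]
  rw [e4]
  ring

/-! ### continuity -/

lemma nn_cont (i : Fin n) : ContinuousAt (nn l i) y := by
  have h1 : ∀ a, ContinuousAt (fun y : E n => l a (pt 0 y)) y := fun a =>
    (V0_cd (h.cl y hy a)).continuousAt
  exact (h1 i.succ).div (h1 0) (h.l0 y hy).ne'

lemma hb_cont (a b : Fin (n + 1)) : ContinuousAt (hb l V a b) y :=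
  (h.hb_cd hy a b).continuousAt

lemma dhb_cont (k : Fin n) (a b : Fin (n + 1)) : ContinuousAt (pd k (hb l V a b)) y :=
  pd_contAt (h.hb_cd hy a b) k

lemma ht_cont (a b : Fin (n + 1)) : ContinuousAt (ht l V a b) y :=
  (h.ht_cd hy a b).continuousAt

lemma Lw_cont (i j : Fin n) : ContinuousAt (Lw l V i j) y :=
  (((h.dhb_cont hy i _ _).add (h.dhb_cont hy j _ _)).sub (h.ht_cont hy _ _)).neg.div_const 2

lemma Pw_cont (i j : Fin n) : ContinuousAt (Pw l V i j) y :=
  (h.Lw_cont hy i j).sub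
    (ContinuousAt.mul (tendsto_finsetSum _ fun k _ => h.Lw_cont hy k k) continuousAt_const)

lemma momT_cont (i j : Fin n) : ContinuousAt (fun y => Stmt.momT D.g D.K y i j) y := by
  have h1 : (fun y => Stmt.momT D.g D.K y i j) =ᶠ[𝓝 y] fun y => D.K y i j - (∑ i, D.K y i i -
      hb l V 0 0 y / (1 + hb l V 0 0 y) * ∑ i, ∑ j, D.K y i j * (nn l i y * nn l j y)) *
      D.g y i j := by
    filter_upwards [far_open hy] with z hz
    unfold Stmt.momT
    rw [h.tr_eq hz]
  have cK : ∀ i j, ContinuousAt (fun y => D.K y i j) y := fun i j =>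
    (D.smooth i j).2.continuous.continuousAt
  have cg : ∀ i j, ContinuousAt (fun y => D.g y i j) y := fun i j =>
    (D.smooth i j).1.continuous.continuousAt
  have cV := h.hb_cont hy 0 0
  refine ContinuousAt.congr ?_ h1.symm
  refine (cK i j).sub (ContinuousAt.mul (ContinuousAt.sub ?_ (ContinuousAt.mul ?_ ?_)) (cg i j))
  · exact tendsto_finsetSum _ fun i _ => cK i i
  · exact cV.div (continuousAt_const.add cV) (h.one_add_pos hy).ne'
  · exact tendsto_finsetSum _ fun i _ => tendsto_finsetSum _ fun j _ =>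
      (cK i j).mul ((h.nn_cont hy i).mul (h.nn_cont hy j))

end Point

/-- **the flux of the energy part of the superpotential** -/
theorem flux_Z0 [Fact (3 ≤ n)] {m : ℝ} (hm : D.IsEnergy m) :
    Tendsto (flux (Zw l V 0)) atTop (𝓝 (-(((n : ℝ) - 1) * om n * m))) := by
  have h1 := (Tendsto.const_mul (((n : ℝ) - 1) * om n) hm).neg
  refine h1.congr' ?_
  filter_upwards [eventually_gt_atTop R, eventually_gt_atTop 0] with r hr hr0
  rw [← X5.flx_eq, ← flux_sphInt, ← flux_neg]
  refine flux_congr hr0 fun i y hy => ?_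
  rw [h.energy_eq (by rw [hy]; exact hr), neg_neg]

/-- **the flux of the momentum part of the superpotential** -/
theorem flux_Zs [hn : Fact (3 ≤ n)] (hAF : D.IsAF) (hR : 0 ≤ R) {P : Fin n → ℝ}
    (hP : D.IsMomentum P) (j : Fin n) :
    Tendsto (flux (Zw l V j.succ)) atTop (𝓝 (-(((n : ℝ) - 1) * om n * P j))) := by
  obtain ⟨q, hq, hD⟩ := exists_dec hAF
  have h3 : (3 : ℝ) ≤ n := by exact_mod_cast hn.out
  have : Nontrivial (E n) := by
    have : Nonempty (Fin n) := ⟨⟨0, by have := hn.out; omega⟩⟩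
    infer_instance
  have hq2 : (n : ℝ) - 1 < 2 * q + 1 := by linarith only [hq]
  have hE : BO (2 * q + 1) fun y => ∑ i, (Stmt.momT D.g D.K y j i - Pw l V j i y) *
      (y i / ‖y‖) := BO.sum _ fun i => (h.BO_momT_sub hD j i).mulb (BO_th i)
  have h1 := Tendsto.const_mul (((n : ℝ) - 1) * om n) (hP j)
  have h2 := (hE.tendsto hq2).sub h1
  rw [zero_sub] at h2
  refine h2.congr' ?_
  filter_upwards [eventually_gt_atTop R, eventually_gt_atTop 0] with r hr hr0
  have hy : ∀ y : E n, ‖y‖ = r → R < ‖y‖ := fun y hy => by rw [hy]; exact hr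
  have e1 : r ^ (n - 1) * SI (fun θ => (fun y : E n => ∑ i, (Stmt.momT D.g D.K y j i -
      Pw l V j i y) * (y i / ‖y‖)) (r • θ)) = flux (fun i y => Stmt.momT D.g D.K y j i -
      Pw l V j i y) r := rfl
  rw [e1, ← X5.flx_eq, ← flux_sphInt, flux_sub (W := fun i y => Stmt.momT D.g D.K y j i)
    (W' := fun i y => Pw l V j i y) hr0 (fun i y hyr => h.momT_cont (hy y hyr) j i)
    (fun i y hyr => h.Pw_cont (hy y hyr) j i)]
  have e2 : flux (Zw l V j.succ) r = flux (fun i y => (∑ k, pd k (fun z =>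
      (kd i j * hb l V 0 k.succ z - kd k j * hb l V 0 i.succ z) / 2) y) - Pw l V j i y) r :=
    flux_congr hr0 fun i y hyr => by
      rw [← h.curl_eq (hy y hyr) j i]; ring
  have hA : ∀ i k (y : E n), R < ‖y‖ → ContDiffAt ℝ ∞
      (fun z => (kd i j * hb l V 0 k.succ z - kd k j * hb l V 0 i.succ z) / 2) y :=
    fun i k y hy => ((contDiffAt_const.mul (h.hb_cd hy _ _)).sub
        (contDiffAt_const.mul (h.hb_cd hy _ _))).div_const 2
  have hcurl := flux_curl hR (A := fun i k z =>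
      (kd i j * hb l V 0 k.succ z - kd k j * hb l V 0 i.succ z) / 2) hA
    (fun i k y _ => by ring) hr
  rw [e2, flux_sub (W := fun i y => ∑ k, pd k (fun z =>
      (kd i j * hb l V 0 k.succ z - kd k j * hb l V 0 i.succ z) / 2) y)
      (W' := fun i y => Pw l V j i y) hr0 (fun i y hyr => tendsto_finsetSum _ fun k _ =>
        pd_contAt (hA i k y (hy y hyr)) k)
    (fun i y hyr => h.Pw_cont (hy y hyr) j i), hcurl]
  ring

end FarK

end Vale.Agent.P366.H474.W
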