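import Vale.Agent.P366.H474.N.FarG

/-! The flux of a curl through a sphere vanishes. -/

open MeasureTheory Metric Filter Topology Set
open scoped ContDiff ENNReal

noncomputable section
namespace Vale.Agent.P366.H474.W

open Vale.Agent.P366 (pd E sphM sphI flux dvg)
open Vale.Agent.P366.H353.N

variable {n : ℕ}

lemma cd_pd {f : E n → ℝ} {y : E n} (hf : ContDiffAt ℝ ∞ f y) (i : Fin n) :
    ContDiffAt ℝ ∞ (pd i f) y := KSN.pd_contDiffAt hf i

/-- a smooth radial cutoff: `0` for `|y| ≤ a`, `1` for `b ≤ |y|` -/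
lemma exists_cutoff {a b : ℝ} (ha : 0 < a) (hab : a < b) : ∃ χ : E n → ℝ, ContDiff ℝ ∞ χ ∧
    (∀ y, ‖y‖ ≤ a → χ y = 0) ∧ ∀ y, b ≤ ‖y‖ → χ y = 1 := by
  refine ⟨fun y => Real.smoothTransition ((‖y‖ - a) / (b - a)), ?_, fun y hy => ?_, fun y hy => ?_⟩
  · rw [contDiff_iff_contDiffAt]
    intro y
    by_cases hy : y = 0
    · have h : (fun y : E n => Real.smoothTransition ((‖y‖ - a) / (b - a))) =ᶠ[𝓝 y]
          fun _ => 0 := by
        subst hy
        have hopen : IsOpen {z : E n | ‖z‖ < a} := isOpen_lt continuous_norm continuous_const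
        filter_upwards [hopen.mem_nhds (by simpa using ha)] with z hz
        refine Real.smoothTransition.zero_of_nonpos ?_
        have : ‖z‖ < a := hz
        exact div_nonpos_of_nonpos_of_nonneg (by linarith) (by linarith)
      exact contDiffAt_const.congr_of_eventuallyEq h
    · have h1 : ContDiffAt ℝ ∞ (fun y : E n => (‖y‖ - a) / (b - a)) y :=
        ((contDiffAt_norm ℝ hy).sub contDiffAt_const).div_const _
      exact (Real.smoothTransition.contDiff (n := (⊤ : ℕ∞))).contDiffAt.comp y h1
  · refine Real.smoothTransition.zero_of_nonpos ?_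
    exact div_nonpos_of_nonpos_of_nonneg (by linarith) (by linarith)
  · refine Real.smoothTransition.one_of_one_le ?_
    rw [le_div_iff₀ (by linarith)]
    linarith

/-- the flux of a smooth global curl -/
lemma flux_curl_global [Nontrivial (E n)] {A : Fin n → Fin n → E n → ℝ}
    (hA : ∀ i k, ContDiff ℝ ∞ (A i k)) (hs : ∀ i k y, A i k y = - A k i y) {a : ℝ} (ha : 0 < a)
    (h0 : ∀ i k y, ‖y‖ ≤ a → A i k y = 0) {r : ℝ} (hr : 0 < r) :
    flux (fun i y => ∑ k, pd k (A i k) y) r = 0 := by
  have hAc : ∀ i k y, ContDiffAt ℝ ∞ (A i k) y := fun i k y => (hA i k).contDiffAt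
  have hW : ∀ i, ContDiffOn ℝ 1 (fun y => ∑ k, pd k (A i k) y) {x : E n | 0 < ‖x‖} := by
    intro i x _
    have h1 : ContDiffAt ℝ ∞ (fun y => ∑ k, pd k (A i k) y) x :=
      ContDiffAt.sum fun k _ => cd_pd (hAc i k x) k
    exact (h1.of_le (by simp)).contDiffWithinAt
  have hd : ∀ x, dvg (fun i y => ∑ k, pd k (A i k) y) x = 0 := by
    intro x
    unfold dvg
    have h1 : ∀ i, pd i (fun y => ∑ k, pd k (A i k) y) x = ∑ k, pd i (pd k (A i k)) x := fun i =>
      Vale.Agent.P366.pd_sum _ (fun k _ => (cd_pd (hAc i k x) k).differentiableAt (by simp)) i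
    simp only [h1]
    have h2 : ∀ i k, pd i (pd k (A i k)) x = - pd k (pd i (A k i)) x := by
      intro i k
      have e1 : pd i (pd k (A i k)) x = pd k (pd i (A i k)) x :=
        KSN.hs_symm_at (hAc i k x) i k
      have e2 : A i k = fun y => - A k i y := funext fun y => hs i k y
      have e3 : pd i (A i k) = fun y => - pd i (A k i) y := by
        funext y
        conv_lhs => rw [e2]
        exact pd_neg' i
      rw [e1, e3]
      exact pd_neg' k
    have h3 : ∑ i, ∑ k, pd i (pd k (A i k)) x = - ∑ i, ∑ k, pd i (pd k (A i k)) x := by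
      conv_lhs => rw [Finset.sum_comm]
      rw [← Finset.sum_neg_distrib]
      refine Finset.sum_congr rfl fun i _ => ?_
      rw [← Finset.sum_neg_distrib]
      exact Finset.sum_congr rfl fun k _ => h2 k i
    linarith
  have hder : ∀ s, 0 < s → HasDerivAt (flux (fun i y => ∑ k, pd k (A i k) y)) 0 s := by
    intro s hs'
    have h1 := Vale.Agent.P366.flux_hasDerivAt (le_refl (0 : ℝ)) hW hs'
    have h2 : sphI (dvg (fun i y => ∑ k, pd k (A i k) y)) s = 0 := by
      unfold Vale.Agent.P366.sphI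
      simp only [hd, integral_zero]
    rwa [h2, mul_zero] at h1
  -- the flux vanishes at small radii
  have hz : flux (fun i y => ∑ k, pd k (A i k) y) (a / 2) = 0 := by
    unfold Vale.Agent.P366.flux Vale.Agent.P366.sphI
    have h1 : ∀ θ : sphere (0 : E n) 1,
        (∑ i, (∑ k, pd k (A i k) ((a / 2) • (θ : E n))) *
          (((a / 2) • (θ : E n)) i / ‖(a / 2) • (θ : E n)‖)) = 0 := by
      intro θ
      have hn : ‖(a / 2) • (θ : E n)‖ = a / 2 :=
        Vale.Agent.P366.norm_smul_sph (by positivity) θ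
      refine Finset.sum_eq_zero fun i _ => ?_
      have h2 : ∑ k, pd k (A i k) ((a / 2) • (θ : E n)) = 0 := by
        refine Finset.sum_eq_zero fun k _ => ?_
        have h3 : A i k =ᶠ[𝓝 ((a / 2) • (θ : E n))] fun _ => 0 := by
          have hopen : IsOpen {z : E n | ‖z‖ < a} := isOpen_lt continuous_norm continuous_const
          filter_upwards [hopen.mem_nhds (by
            show ‖(a / 2) • (θ : E n)‖ < a
            rw [hn]; linarith)] with z hz using h0 i k z (le_of_lt hz)
        rw [Vale.Agent.P366.pd_congr h3 k, Vale.Agent.P366.pd_const]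
      rw [h2, zero_mul]
    simp only [h1, integral_zero, mul_zero]
  rw [← hz]
  have hc := is_const_of_deriv_eq_zero (𝕜 := ℝ)
    (f := fun t : ℝ => flux (fun i y => ∑ k, pd k (A i k) y) (Real.exp t)) (by
      intro t
      exact ((hder _ (Real.exp_pos t)).comp t (Real.hasDerivAt_exp t)).differentiableAt) (by
      intro t
      have h1 : HasDerivAt (fun t : ℝ => flux (fun i y => ∑ k, pd k (A i k) y) (Real.exp t))
          (0 * Real.exp t) t := (hder _ (Real.exp_pos t)).comp t (Real.hasDerivAt_exp t)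
      rw [h1.deriv, zero_mul]) (Real.log r) (Real.log (a / 2))
  simpa only [Real.exp_log hr, Real.exp_log (by positivity : 0 < a / 2)] using hc

/-- the flux of a curl through a sphere vanishes -/
theorem flux_curl [Nontrivial (E n)] {R : ℝ} (hR : 0 ≤ R) {A : Fin n → Fin n → E n → ℝ}
    (hA : ∀ i k y, R < ‖y‖ → ContDiffAt ℝ ∞ (A i k) y)
    (hs : ∀ i k y, R < ‖y‖ → A i k y = - A k i y) {r : ℝ} (hr : R < r) :
    flux (fun i y => ∑ k, pd k (A i k) y) r = 0 := by
  obtain ⟨a, ha1, ha2⟩ := exists_between hr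
  obtain ⟨b, hb1, hb2⟩ := exists_between ha2
  have ha0 : 0 < a := lt_of_le_of_lt hR ha1
  obtain ⟨χ, hχ, hχ0, hχ1⟩ := exists_cutoff (n := n) ha0 hb1
  have hr0 : 0 < r := lt_trans ha0 ha2
  set B : Fin n → Fin n → E n → ℝ := fun i k y => if R < ‖y‖ then χ y * A i k y else 0 with hB
  have hB0 : ∀ i k y, ‖y‖ ≤ a → B i k y = 0 := by
    intro i k y hy
    simp only [hB]
    split_ifs
    · rw [hχ0 y hy, zero_mul]
    · rfl
  have hBc : ∀ i k, ContDiff ℝ ∞ (B i k) := by
    intro i k
    rw [contDiff_iff_contDiffAt]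
    intro y
    rcases lt_or_ge R ‖y‖ with hy | hy
    · have h : B i k =ᶠ[𝓝 y] fun z => χ z * A i k z := by
        filter_upwards [KSN.far_open hy] with z hz
        simp only [hB, if_pos hz]
      exact (hχ.contDiffAt.mul (hA i k y hy)).congr_of_eventuallyEq h
    · have h : B i k =ᶠ[𝓝 y] fun _ => 0 := by
        have hopen : IsOpen {z : E n | ‖z‖ < a} := isOpen_lt continuous_norm continuous_const
        filter_upwards [hopen.mem_nhds (lt_of_le_of_lt hy ha1)] with z hz
          using hB0 i k z (le_of_lt hz)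
      exact contDiffAt_const.congr_of_eventuallyEq h
  have hBs : ∀ i k y, B i k y = - B k i y := by
    intro i k y
    simp only [hB]
    split_ifs with h
    · rw [hs i k y h]; ring
    · simp
  have h1 := flux_curl_global hBc hBs ha0 hB0 hr0
  rw [← h1]
  unfold Vale.Agent.P366.flux Vale.Agent.P366.sphI
  congr 1
  refine integral_congr_ae (Eventually.of_forall fun θ => ?_)
  have hn : ‖r • (θ : E n)‖ = r := Vale.Agent.P366.norm_smul_sph hr0.le θ
  refine Finset.sum_congr rfl fun i _ => ?_
  congr 1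
  refine Finset.sum_congr rfl fun k _ => ?_
  refine Vale.Agent.P366.pd_congr ?_ k
  have hb : b < ‖r • (θ : E n)‖ := by rw [hn]; exact hb2
  filter_upwards [KSN.far_open hb] with z hz
  simp only [hB]
  rw [if_pos (lt_trans ha1 (lt_trans hb1 hz)), hχ1 z hz.le, one_mul]

end Vale.Agent.P366.H474.W
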