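import Vale.Agent.P366.H474.W.Curl
import Vale.Agent.P366.H896.N.X1
import Vale.Agent.P366.H375.N.X2d

/-! Kerr-Schild metrics with a general null covector field: the slice `t = 0` far out. -/

open MeasureTheory Metric Filter Topology Set
open scoped ContDiff ENNReal

noncomputable section
namespace Vale.Agent.P366.H474.W

open Vale.Agent.P366 (pd E sphM)
open Vale.Agent.P366.H353.N
open Vale.Agent.P366.KSN
open Vale.Agent.P366.T2 (HP)
open Vale.Agent.P366.Kerr (pt sp indG indK lapse tng con)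

variable {n : ℕ} {G : Stmt.Field (n + 1)} {l : Fin (n + 1) → E (n + 1) → ℝ}
  {V : E (n + 1) → ℝ} {f : E n → ℝ}
  {D : Stmt.Exterior n} {R : ℝ} {y : E n}

/-- the tensor `V l ⊗ l` -/
def hh (l : Fin (n + 1) → E (n + 1) → ℝ) (V : E (n + 1) → ℝ) (a b : Fin (n + 1))
    (p : E (n + 1)) : ℝ := V p * (l a p * l b p)

/-- the data are the slice `t = 0` of the metric `η + V l ⊗ l`, with `l` null, for `|y| > R` -/
structure FarK (G : Stmt.Field (n + 1)) (l : Fin (n + 1) → E (n + 1) → ℝ) (V : E (n + 1) → ℝ)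
    (f : E n → ℝ) (D : Stmt.Exterior n) (R : ℝ) : Prop where
  cl : ∀ y : E n, R < ‖y‖ → ∀ a, ContDiffAt ℝ ∞ (l a) (pt 0 y)
  cV : ∀ y : E n, R < ‖y‖ → ContDiffAt ℝ ∞ V (pt 0 y)
  hG : ∀ y : E n, R < ‖y‖ → ∀ᶠ p in 𝓝 (pt 0 y), ∀ a b,
    G p a b = (if a = b then X1.sgn a else 0) + hh l V a b p
  null : ∀ y : E n, R < ‖y‖ → ∀ᶠ p in 𝓝 (pt 0 y), ∑ a, X1.sgn a * (l a p * l a p) = 0
  l0 : ∀ y : E n, R < ‖y‖ → 0 < l 0 (pt 0 y)
  hf : ∀ y : E n, R < ‖y‖ → f =ᶠ[𝓝 y] fun _ => 0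
  hF : ∀ y : E n, R < ‖y‖ → 0 ≤ D.F y
  met : ∀ y : E n, R < ‖y‖ → ∀ i j, D.g y i j = indG G f y i j
  sff : ∀ y : E n, R < ‖y‖ → ∀ i j, D.K y i j = indK G f y i j

/-- the components of `V l ⊗ l` on the slice -/
def hb (l : Fin (n + 1) → E (n + 1) → ℝ) (V : E (n + 1) → ℝ) (a b : Fin (n + 1)) : E n → ℝ :=
  V0 (hh l V a b)

/-- their time derivatives -/
def ht (l : Fin (n + 1) → E (n + 1) → ℝ) (V : E (n + 1) → ℝ) (a b : Fin (n + 1)) : E n → ℝ :=
  Vt (hh l V a b)

/-- the direction of `l` -/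
def nn (l : Fin (n + 1) → E (n + 1) → ℝ) (i : Fin n) (y : E n) : ℝ :=
  l i.succ (pt 0 y) / l 0 (pt 0 y)

/-- the linear part of `K` -/
def Lw (l : Fin (n + 1) → E (n + 1) → ℝ) (V : E (n + 1) → ℝ) (i j : Fin n) (y : E n) : ℝ :=
  -(pd i (hb l V 0 j.succ) y + pd j (hb l V 0 i.succ) y - ht l V i.succ j.succ y) / 2

lemma hh_symm (a b : Fin (n + 1)) : hh l V a b = hh l V b a := by
  funext p
  unfold hh
  ring

lemma hb_symm (a b : Fin (n + 1)) : hb l V a b = hb l V b a := by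
  unfold hb
  rw [hh_symm]

lemma ht_symm (a b : Fin (n + 1)) : ht l V a b = ht l V b a := by
  unfold ht
  rw [hh_symm]

lemma hh_cd {p : E (n + 1)} (h : ∀ a, ContDiffAt ℝ ∞ (l a) p) (hV : ContDiffAt ℝ ∞ V p)
    (a b : Fin (n + 1)) : ContDiffAt ℝ ∞ (hh l V a b) p := hV.mul ((h a).mul (h b))

lemma spd_hh {p : E (n + 1)} (h : ∀ a, ContDiffAt ℝ ∞ (l a) p) (hV : ContDiffAt ℝ ∞ V p)
    (c a b : Fin (n + 1)) : Stmt.pd c (hh l V a b) p =
      Stmt.pd c V p * (l a p * l b p) +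
        V p * (Stmt.pd c (l a) p * l b p + l a p * Stmt.pd c (l b) p) := by
  have d : ∀ a, DifferentiableAt ℝ (l a) p := fun a => (h a).differentiableAt (by simp)
  exact ((HP.of_diff (hV.differentiableAt (by simp))).mul
    ((HP.of_diff (d a)).mul (HP.of_diff (d b)))).pd

lemma pd_hh {p : E (n + 1)} (h : ∀ a, ContDiffAt ℝ ∞ (l a) p) (hV : ContDiffAt ℝ ∞ V p)
    (c a b : Fin (n + 1)) : pd c (hh l V a b) p =
      Stmt.pd c V p * (l a p * l b p) +
        V p * (Stmt.pd c (l a) p * l b p + l a p * Stmt.pd c (l b) p) := by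
  rw [← spd_hh h hV, X2.stmt_pd' (hh_cd h hV a b)]

namespace FarK

variable (h : FarK G l V f D R) (hy : R < ‖y‖)
include h hy

lemma sq : ∑ i : Fin n, l i.succ (pt 0 y) * l i.succ (pt 0 y) = l 0 (pt 0 y) * l 0 (pt 0 y) := by
  have h1 := (h.null y hy).self_of_nhds
  rw [Fin.sum_univ_succ] at h1
  simp only [X1.sgn0, X1.sgns, one_mul] at h1
  linarith

/-- the derivative of the null condition -/
lemma null1 (c : Fin (n + 1)) :
    ∑ a, X1.sgn a * (l a (pt 0 y) * Stmt.pd c (l a) (pt 0 y)) = 0 := by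
  have d : ∀ a, DifferentiableAt ℝ (l a) (pt 0 y) := fun a =>
    (h.cl y hy a).differentiableAt (by simp)
  have h1 : HP c (fun z => ∑ a, X1.sgn a * (l a z * l a z)) (∑ a, X1.sgn a *
      (Stmt.pd c (l a) (pt 0 y) * l a (pt 0 y) + l a (pt 0 y) * Stmt.pd c (l a) (pt 0 y)))
      (pt 0 y) :=
    HP.sum _ fun a _ => ((HP.of_diff (d a)).mul (HP.of_diff (d a))).const_mul (X1.sgn a)
  have h2 : HP c (fun z => ∑ a, X1.sgn a * (l a z * l a z)) 0 (pt 0 y) :=
    (HP.const c 0 (pt 0 y)).congr (h.null y hy)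
  have h3 := h1.pd.symm.trans h2.pd
  have h4 : ∑ a, X1.sgn a *
      (Stmt.pd c (l a) (pt 0 y) * l a (pt 0 y) + l a (pt 0 y) * Stmt.pd c (l a) (pt 0 y)) =
      2 * ∑ a, X1.sgn a * (l a (pt 0 y) * Stmt.pd c (l a) (pt 0 y)) := by
    rw [Finset.mul_sum]
    exact Finset.sum_congr rfl fun a _ => by ring
  linarith

lemma sq1 (c : Fin (n + 1)) :
    ∑ i : Fin n, l i.succ (pt 0 y) * Stmt.pd c (l i.succ) (pt 0 y) =
      l 0 (pt 0 y) * Stmt.pd c (l 0) (pt 0 y) := by
  have h1 := h.null1 hy c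
  rw [Fin.sum_univ_succ] at h1
  simp only [X1.sgn0, X1.sgns, one_mul] at h1
  linarith

lemma sum_nn : ∑ i, nn l i y * nn l i y = 1 := by
  have h0 := (h.l0 y hy).ne'
  have h1 := h.sq hy
  unfold nn
  have h2 : ∀ i : Fin n, l i.succ (pt 0 y) / l 0 (pt 0 y) *
      (l i.succ (pt 0 y) / l 0 (pt 0 y)) =
      l i.succ (pt 0 y) * l i.succ (pt 0 y) /
        (l 0 (pt 0 y) * l 0 (pt 0 y)) := fun i => by
    field_simp
  simp only [h2]
  rw [← Finset.sum_div, h1, div_self (mul_ne_zero h0 h0)]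

lemma w_eq (i : Fin n) : l i.succ (pt 0 y) = l 0 (pt 0 y) * nn l i y := by
  have h0 := (h.l0 y hy).ne'
  unfold nn
  field_simp

lemma hb_eq (i j : Fin n) : hb l V i.succ j.succ y = hb l V 0 0 y * (nn l i y * nn l j y) := by
  unfold hb V0 hh
  rw [h.w_eq hy i, h.w_eq hy j]
  ring

lemma hb0_eq (i : Fin n) : hb l V 0 i.succ y = hb l V 0 0 y * nn l i y := by
  unfold hb V0 hh
  rw [h.w_eq hy i]
  ring

lemma hb00_eq : hb l V 0 0 y = ∑ k : Fin n, hb l V k.succ k.succ y := by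
  simp only [h.hb_eq hy]
  rw [← Finset.mul_sum, h.sum_nn hy, mul_one]

lemma hb_cd (a b : Fin (n + 1)) : ContDiffAt ℝ ∞ (hb l V a b) y :=
  V0_cd (hh_cd (h.cl y hy) (h.cV y hy) a b)

lemma ht_cd (a b : Fin (n + 1)) : ContDiffAt ℝ ∞ (ht l V a b) y :=
  Vt_cd (hh_cd (h.cl y hy) (h.cV y hy) a b)

lemma pd_hb (k : Fin n) (a b : Fin (n + 1)) : pd k (hb l V a b) y =
    pd k.succ (hh l V a b) (pt 0 y) :=
  pd_V0 ((hh_cd (h.cl y hy) (h.cV y hy) a b).differentiableAt (by simp)) k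

/-- `∂_c h_{0j} = Σ_k ∂_c h_{jk} n_k` -/
lemma pd_hh0 (c : Fin (n + 1)) (j : Fin n) : pd c (hh l V 0 j.succ) (pt 0 y) =
    ∑ k : Fin n, pd c (hh l V j.succ k.succ) (pt 0 y) * nn l k y := by
  have h0 := (h.l0 y hy).ne'
  have h1 := h.sq hy
  have h2 := h.sq1 hy c
  simp only [pd_hh (h.cl y hy) (h.cV y hy)]
  have e : ∑ k : Fin n, (Stmt.pd c V (pt 0 y) * (l j.succ (pt 0 y) *
      l k.succ (pt 0 y)) + V (pt 0 y) * (Stmt.pd c (l j.succ) (pt 0 y) *
      l k.succ (pt 0 y) + l j.succ (pt 0 y) *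
      Stmt.pd c (l k.succ) (pt 0 y))) * nn l k y =
      (Stmt.pd c V (pt 0 y) * l j.succ (pt 0 y) +
        V (pt 0 y) * Stmt.pd c (l j.succ) (pt 0 y)) *
        (∑ i : Fin n, l i.succ (pt 0 y) * l i.succ (pt 0 y)) /
          l 0 (pt 0 y) + V (pt 0 y) * l j.succ (pt 0 y) *
        (∑ i : Fin n, l i.succ (pt 0 y) * Stmt.pd c (l i.succ) (pt 0 y)) /
          l 0 (pt 0 y) := by
    rw [Finset.mul_sum, Finset.mul_sum, Finset.sum_div, Finset.sum_div, ← Finset.sum_add_distrib]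
    refine Finset.sum_congr rfl fun k _ => ?_
    unfold nn
    field_simp
    ring
  rw [e, h1, h2]
  field_simp
  ring

/-- `∂_c h_{00} = Σ_k ∂_c h_{kk}` -/
lemma pd_hh00 (c : Fin (n + 1)) : pd c (hh l V 0 0) (pt 0 y) =
    ∑ k : Fin n, pd c (hh l V k.succ k.succ) (pt 0 y) := by
  have h1 := h.sq hy
  have h2 := h.sq1 hy c
  simp only [pd_hh (h.cl y hy) (h.cV y hy)]
  have e : ∑ k : Fin n, (Stmt.pd c V (pt 0 y) * (l k.succ (pt 0 y) *
      l k.succ (pt 0 y)) + V (pt 0 y) * (Stmt.pd c (l k.succ) (pt 0 y) *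
      l k.succ (pt 0 y) + l k.succ (pt 0 y) *
      Stmt.pd c (l k.succ) (pt 0 y))) =
      Stmt.pd c V (pt 0 y) * (∑ i : Fin n, l i.succ (pt 0 y) * l i.succ (pt 0 y)) +
        2 * V (pt 0 y) *
        (∑ i : Fin n, l i.succ (pt 0 y) * Stmt.pd c (l i.succ) (pt 0 y)) := by
    rw [Finset.mul_sum, Finset.mul_sum, ← Finset.sum_add_distrib]
    exact Finset.sum_congr rfl fun k _ => by ring
  rw [e, h1, h2]
  ring

lemma pd_hb0 (k j : Fin n) : pd k (hb l V 0 j.succ) y =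
    ∑ m : Fin n, pd k (hb l V j.succ m.succ) y * nn l m y := by
  rw [h.pd_hb hy, h.pd_hh0 hy]
  exact Finset.sum_congr rfl fun m _ => by rw [h.pd_hb hy]

lemma pd_hb00 (k : Fin n) : pd k (hb l V 0 0) y = ∑ m : Fin n, pd k (hb l V m.succ m.succ) y := by
  rw [h.pd_hb hy, h.pd_hh00 hy]
  exact Finset.sum_congr rfl fun m _ => by rw [h.pd_hb hy]

lemma ht00 : ht l V 0 0 y = ∑ m : Fin n, ht l V m.succ m.succ y := h.pd_hh00 hy 0

/-! ### the induced data -/

lemma f0 : f y = 0 := (h.hf y hy).self_of_nhds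

lemma spdf (i : Fin n) : Stmt.pd i f y = 0 := by
  have h1 : Stmt.pd i f y = Stmt.pd i (fun _ => 0) y := (h.hf y hy).lineDeriv_eq
  rw [h1, X2.stmt_pd (differentiableAt_const (0 : ℝ)) i, Vale.Agent.P366.pd_const]

lemma spd2f (i j : Fin n) : Stmt.pd i (Stmt.pd j f) y = 0 := by
  have h1 : Stmt.pd j f =ᶠ[𝓝 y] fun _ => 0 := by
    filter_upwards [(h.hf y hy).eventuallyEq_nhds] with z hz
    have h2 : Stmt.pd j f z = Stmt.pd j (fun _ => 0) z := hz.lineDeriv_eq
    rw [h2, X2.stmt_pd (differentiableAt_const (0 : ℝ)) j, Vale.Agent.P366.pd_const]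
  have h2 : Stmt.pd i (Stmt.pd j f) y = Stmt.pd i (fun _ => 0) y := h1.lineDeriv_eq
  rw [h2, X2.stmt_pd (differentiableAt_const (0 : ℝ)) i, Vale.Agent.P366.pd_const]

lemma tng_eq (i : Fin n) (a : Fin (n + 1)) : tng f i y a = if a = i.succ then 1 else 0 := by
  unfold tng
  rw [h.spdf hy]
  refine Fin.cases ?_ (fun j => ?_) a
  · simp [(Fin.succ_ne_zero i).symm]
  · simp [Pi.single_apply]

lemma con_eq (a : Fin (n + 1)) : con f y a = if a = 0 then 1 else 0 := by
  unfold con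
  refine Fin.cases ?_ (fun j => ?_) a
  · simp
  · simp [h.spdf hy]

lemma tng_sum (F : Fin (n + 1) → Fin (n + 1) → ℝ) (i j : Fin n) :
    ∑ a, ∑ b, F a b * tng f i y a * tng f j y b = F i.succ j.succ := by
  simp only [h.tng_eq hy]
  simp

/-- the metric far out -/
lemma g_eq (i j : Fin n) : D.g y i j = kd i j + hb l V i.succ j.succ y := by
  rw [h.met y hy]
  unfold indG
  rw [h.tng_sum hy, h.f0 hy, (h.hG y hy).self_of_nhds]
  unfold hb V0 kd
  congr 1
  by_cases hij : i = j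
  · subst hij
    simp [X1.sgns]
  · rw [if_neg hij, if_neg (fun e => hij (Fin.succ_injective _ e))]

lemma one_add_pos : 0 < 1 + hb l V 0 0 y := by
  have h1 := (D.pos y (h.hF y hy)).dotProduct_mulVec_pos (x := fun i => nn l i y) (by
    intro h0
    have h2 := h.sum_nn hy
    have h3 : ∀ i, nn l i y = 0 := fun i => congrFun h0 i
    simp only [h3] at h2
    simp at h2)
  have e : star (fun i => nn l i y) ⬝ᵥ (Stmt.mat D.g y).mulVec (fun i => nn l i y) =
      1 + hb l V 0 0 y := by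
    simp only [dotProduct, Matrix.mulVec, Pi.star_apply, star_trivial, Stmt.mat, h.g_eq hy,
      h.hb_eq hy]
    have e1 : ∀ i, ∑ j, (kd i j + hb l V 0 0 y * (nn l i y * nn l j y)) * nn l j y =
        nn l i y + hb l V 0 0 y * nn l i y * ∑ j, nn l j y * nn l j y := by
      intro i
      simp only [add_mul, Finset.sum_add_distrib, Finset.mul_sum]
      congr 1
      · simp [kd]
      · exact Finset.sum_congr rfl fun j _ => by ring
    simp only [e1, h.sum_nn hy, mul_one]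
    have e2 : ∑ i, nn l i y * (nn l i y + hb l V 0 0 y * nn l i y) =
        (1 + hb l V 0 0 y) * ∑ i, nn l i y * nn l i y := by
      rw [Finset.mul_sum]
      exact Finset.sum_congr rfl fun i _ => by ring
    rw [e2, h.sum_nn hy, mul_one]
  rwa [e] at h1

/-! ### the inverse metric and the lapse -/

lemma upG (a b : Fin (n + 1)) : Stmt.up G a b (pt 0 y) = (if a = b then X1.sgn a else 0) -
    V (pt 0 y) * ((X1.sgn a * l a (pt 0 y)) * (X1.sgn b * l b (pt 0 y))) := by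
  have hn := (h.null y hy).self_of_nhds
  have hg := (h.hG y hy).self_of_nhds
  have he : ∀ a : Fin (n + 1), X1.sgn a * X1.sgn a = 1 := by
    intro a
    unfold X1.sgn
    split_ifs <;> norm_num
  have e : Stmt.mat G (pt 0 y) * (Matrix.of fun a b => (if a = b then X1.sgn a else 0) -
      V (pt 0 y) * ((X1.sgn a * l a (pt 0 y)) * (X1.sgn b * l b (pt 0 y)))) = 1 := by
    ext a c
    rw [Matrix.mul_apply, Matrix.one_apply]
    have h1 : ∀ b, Stmt.mat G (pt 0 y) a b * (Matrix.of fun a b =>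
        (if a = b then X1.sgn a else 0) -
        V (pt 0 y) * ((X1.sgn a * l a (pt 0 y)) * (X1.sgn b * l b (pt 0 y)))) b c =
        (if a = b then X1.sgn a * (if b = c then X1.sgn b else 0) else 0) -
        (if a = b then X1.sgn a * (V (pt 0 y) * ((X1.sgn b * l b (pt 0 y)) *
          (X1.sgn c * l c (pt 0 y)))) else 0) +
        (if b = c then V (pt 0 y) * (l a (pt 0 y) * l b (pt 0 y)) * X1.sgn b else 0) -
        V (pt 0 y) * V (pt 0 y) * l a (pt 0 y) * (X1.sgn c * l c (pt 0 y)) *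
          (X1.sgn b * (l b (pt 0 y) * l b (pt 0 y))) := by
      intro b
      rw [Matrix.of_apply]
      unfold Stmt.mat
      rw [hg a b]
      unfold hh
      split_ifs <;> ring
    simp only [h1, Finset.sum_add_distrib, Finset.sum_sub_distrib, ← Finset.mul_sum, hn,
      Finset.sum_ite_eq, Finset.sum_ite_eq', Finset.mem_univ, if_true]
    have h2 := he a
    split_ifs with hac
    · subst hac
      linear_combination (1 - V (pt 0 y) * l a (pt 0 y) * (X1.sgn a * l a (pt 0 y))) * h2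
    · linear_combination (-V (pt 0 y) * l a (pt 0 y) * (X1.sgn c * l c (pt 0 y))) * h2
  unfold Stmt.up
  rw [Matrix.inv_eq_right_inv e, Matrix.of_apply]

lemma up00 : Stmt.up G 0 0 (pt 0 y) = -(1 + hb l V 0 0 y) := by
  rw [h.upG hy, if_pos rfl, X1.sgn0]
  unfold hb V0 hh
  ring

lemma up0s (k : Fin n) : Stmt.up G 0 k.succ (pt 0 y) = hb l V 0 k.succ y := by
  rw [h.upG hy, if_neg (Fin.succ_ne_zero k).symm, X1.sgn0, X1.sgns]
  unfold hb V0 hh
  ring

lemma con_sum (F : Fin (n + 1) → ℝ) : ∑ a, con f y a * F a = F 0 := by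
  simp only [h.con_eq hy]
  simp

lemma lapse_eq : lapse G f y = 1 / √(1 + hb l V 0 0 y) := by
  unfold lapse
  have e : ∑ a, ∑ b, Stmt.up G a b (pt (f y) y) * con f y a * con f y b =
      Stmt.up G 0 0 (pt 0 y) := by
    simp only [h.con_eq hy, h.f0 hy]
    simp
  rw [e, h.up00 hy, neg_neg]

lemma spdG (c a b : Fin (n + 1)) : Stmt.pd c (fun p => G p a b) (pt 0 y) =
    pd c (hh l V a b) (pt 0 y) := by
  have h1 : (fun p => G p a b) =ᶠ[𝓝 (pt 0 y)]
      fun p => (if a = b then X1.sgn a else 0) + hh l V a b p := by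
    filter_upwards [h.hG y hy] with p hp using hp a b
  have d := (hh_cd (h.cl y hy) (h.cV y hy) a b).differentiableAt (by simp)
  have h2 : Stmt.pd c (fun p => G p a b) (pt 0 y) =
      Stmt.pd c (fun p => (if a = b then X1.sgn a else 0) + hh l V a b p) (pt 0 y) :=
    h1.lineDeriv_eq
  rw [h2, ((HP.const c (if a = b then X1.sgn a else 0) (pt 0 y)).add (HP.of_diff d)).pd, zero_add,
    X2.stmt_pd d]

/-- the Christoffel symbols -/
lemma chr_eq (i j : Fin n) : Stmt.chr G 0 i.succ j.succ (pt 0 y) = Lw l V i j y -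
    hb l V 0 0 y / 2 * ((∑ k, nn l k y * pd k (hb l V i.succ j.succ) y) -
      ht l V i.succ j.succ y) := by
  unfold Stmt.chr
  rw [Fin.sum_univ_succ]
  simp only [h.spdG hy, h.up00 hy, h.up0s hy]
  simp only [← h.pd_hb hy, h.hb0_eq hy]
  have e0 : pd (0 : Fin (n + 1)) (hh l V i.succ j.succ) (pt 0 y) = ht l V i.succ j.succ y := rfl
  rw [e0, hb_symm j.succ 0, hb_symm i.succ 0]
  have e1 : ∑ k : Fin n, hb l V 0 0 y * nn l k y * (pd i (hb l V j.succ k.succ) y +
      pd j (hb l V i.succ k.succ) y - pd k (hb l V i.succ j.succ) y) =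
      hb l V 0 0 y * ((∑ k : Fin n, pd i (hb l V j.succ k.succ) y * nn l k y) +
        (∑ k : Fin n, pd j (hb l V i.succ k.succ) y * nn l k y) -
        ∑ k : Fin n, nn l k y * pd k (hb l V i.succ j.succ) y) := by
    rw [← Finset.sum_add_distrib, ← Finset.sum_sub_distrib, Finset.mul_sum]
    exact Finset.sum_congr rfl fun k _ => by ring
  rw [e1, ← h.pd_hb0 hy, ← h.pd_hb0 hy]
  unfold Lw
  ring

/-- the second fundamental form far out -/
lemma K_eq (i j : Fin n) : D.K y i j = 1 / √(1 + hb l V 0 0 y) * (Lw l V i j y -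
    hb l V 0 0 y / 2 * ((∑ k, nn l k y * pd k (hb l V i.succ j.succ) y) -
      ht l V i.succ j.succ y)) := by
  rw [h.sff y hy]
  unfold indK
  rw [h.spd2f hy, zero_add, h.con_sum hy, h.tng_sum hy, h.f0 hy, h.chr_eq hy, h.lapse_eq hy]

/-- the inverse metric far out -/
lemma up_eq (i j : Fin n) : Stmt.up D.g i j y =
    kd i j - hb l V 0 0 y / (1 + hb l V 0 0 y) * (nn l i y * nn l j y) := by
  have hp := (h.one_add_pos hy).ne'
  have h1 := h.sum_nn hy
  have e : Stmt.mat D.g y * (Matrix.of fun i j =>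
      kd i j - hb l V 0 0 y / (1 + hb l V 0 0 y) * (nn l i y * nn l j y)) = 1 := by
    ext i k
    rw [Matrix.mul_apply, Matrix.one_apply]
    simp only [Matrix.of_apply, Stmt.mat, h.g_eq hy, h.hb_eq hy]
    generalize hb l V 0 0 y = v at hp ⊢
    have h2 : ∀ j, (kd i j + v * (nn l i y * nn l j y)) *
        (kd j k - v / (1 + v) * (nn l j y * nn l k y)) =
        kd i j * kd j k - kd i j * (v / (1 + v) * (nn l j y * nn l k y)) +
        kd j k * (v * nn l i y * nn l j y) -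
        v * (v / (1 + v)) * nn l i y * nn l k y * (nn l j y * nn l j y) := by
      intro j
      ring
    simp only [h2, Finset.sum_add_distrib, Finset.sum_sub_distrib, ← Finset.mul_sum, h1]
    have e3 : ∑ j, kd i j * kd j k = kd i k := by simp [kd]
    have e4 : ∑ j, kd i j * (v / (1 + v) * (nn l j y * nn l k y)) =
        v / (1 + v) * (nn l i y * nn l k y) := by simp [kd]
    have e5 : ∑ j, kd j k * (v * nn l i y * nn l j y) = v * nn l i y * nn l k y := by simp [kd]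
    rw [e3, e4, e5]
    unfold kd
    field_simp
    ring
  unfold Stmt.up
  rw [Matrix.inv_eq_right_inv e, Matrix.of_apply]

/-- the trace of `K` far out -/
lemma tr_eq : Stmt.tr D.g D.K y = ∑ i, D.K y i i -
    hb l V 0 0 y / (1 + hb l V 0 0 y) * ∑ i, ∑ j, D.K y i j * (nn l i y * nn l j y) := by
  unfold Stmt.tr
  simp only [h.up_eq hy]
  have h2 : ∀ i, ∑ j, (kd i j - hb l V 0 0 y / (1 + hb l V 0 0 y) * (nn l i y * nn l j y)) *
      D.K y i j = D.K y i i -
        hb l V 0 0 y / (1 + hb l V 0 0 y) * ∑ j, D.K y i j * (nn l i y * nn l j y) := by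
    intro i
    simp only [sub_mul, Finset.sum_sub_distrib, Finset.mul_sum]
    congr 1
    · simp [kd]
    · exact Finset.sum_congr rfl fun j _ => by ring
  simp only [h2, Finset.sum_sub_distrib, ← Finset.mul_sum]

end FarK

end Vale.Agent.P366.H474.W
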