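import Vale.Agent.P366.H474.W.A

/-! Kerr-Schild metrics with a general null covector field: orders of decay far out. -/

open MeasureTheory Metric Filter Topology Set
open scoped ContDiff ENNReal

noncomputable section
namespace Vale.Agent.P366.H474.W

open Vale.Agent.P366 (pd E sphM)
open Vale.Agent.P366.H353.N
open Vale.Agent.P366.KSN
open Vale.Agent.P366.Kerr (pt sp indG indK lapse tng con)

variable {n : ℕ} {G : Stmt.Field (n + 1)} {l : Fin (n + 1) → E (n + 1) → ℝ}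
  {V : E (n + 1) → ℝ} {f : E n → ℝ}
  {D : Stmt.Exterior n} {R q : ℝ} {y : E n}

/-- orders of decay of the data -/
structure Dec (D : Stmt.Exterior n) (q : ℝ) : Prop where
  hq : 0 < q
  g : ∀ i j, BO q fun x => D.g x i j - kd i j
  dg : ∀ i j k, BO (q + 1) (Stmt.pd k fun x => D.g x i j)
  K : ∀ i j, BO (q + 1) fun x => D.K x i j

lemma exists_dec [hn : Fact (3 ≤ n)] (hAF : D.IsAF) : ∃ q : ℝ, (n : ℝ) / 2 - 1 < q ∧ Dec D q := by
  obtain ⟨q, hq, h⟩ := hAF
  have h3 : (3 : ℝ) ≤ n := by exact_mod_cast hn.out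
  have k0 : Fin n := ⟨0, by have := hn.out; omega⟩
  exact ⟨q, hq, by linarith only [hq, h3], fun i j => BO.of_bigO (h i j k0 k0).1,
    fun i j k => BO.of_bigO (h i j k k0).2.1, fun i j => BO.of_bigO (h i j k0 k0).2.2.2.1⟩

/-- the linear part of the momentum tensor -/
def Pw (l : Fin (n + 1) → E (n + 1) → ℝ) (V : E (n + 1) → ℝ) (i j : Fin n) (y : E n) : ℝ :=
  Lw l V i j y - (∑ k, Lw l V k k y) * kd i j

namespace FarK

variable (h : FarK G l V f D R)
include h

lemma BO_nn (i : Fin n) : BO 0 (nn l i) := by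
  refine BO.bdd (K := 1) R fun y hy => ?_
  have h1 := h.sum_nn hy
  have h2 : nn l i y * nn l i y ≤ ∑ i, nn l i y * nn l i y :=
    Finset.single_le_sum (f := fun i => nn l i y * nn l i y) (fun i _ => mul_self_nonneg _)
      (Finset.mem_univ i)
  rw [h1] at h2
  exact abs_le_one_iff_mul_self_le_one.2 h2

lemma BO_nn2 (i j : Fin n) : BO 0 fun y => nn l i y * nn l j y := by
  have := (h.BO_nn i).mul (h.BO_nn j)
  rwa [zero_add] at this

variable (hD : Dec D q)
include hD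

lemma BO_hb (i j : Fin n) : BO q (hb l V i.succ j.succ) :=
  (hD.g i j).congr (R := R) fun y hy => by rw [h.g_eq hy]; ring

lemma BO_v : BO q (hb l V 0 0) :=
  (BO.sum Finset.univ fun k : Fin n => h.BO_hb hD k k).congr (R := R) fun _ hy => h.hb00_eq hy

lemma BO_hb0 (j : Fin n) : BO q (hb l V 0 j.succ) :=
  ((h.BO_v hD).mulb (h.BO_nn j)).congr (R := R) fun _ hy => h.hb0_eq hy j

lemma BO_dhb (i j k : Fin n) : BO (q + 1) (pd k (hb l V i.succ j.succ)) := by
  refine (hD.dg i j k).congr (R := R) fun y hy => ?_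
  have h1 : hb l V i.succ j.succ =ᶠ[𝓝 y] fun z => D.g z i j - kd i j := by
    filter_upwards [far_open hy] with z hz
    rw [h.g_eq hz]; ring
  have d : DifferentiableAt ℝ (fun z => D.g z i j) y :=
    ((D.smooth i j).1.contDiffAt).differentiableAt (by simp)
  rw [Vale.Agent.P366.pd_congr h1 k, Vale.Agent.P366.pd_sub d (differentiableAt_const _),
    Vale.Agent.P366.pd_const, sub_zero, X2.stmt_pd d]

lemma BO_dhb0 (j k : Fin n) : BO (q + 1) (pd k (hb l V 0 j.succ)) :=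
  (BO.sum Finset.univ fun m : Fin n => (h.BO_dhb hD j m k).mulb (h.BO_nn m)).congr (R := R)
    fun _ hy => h.pd_hb0 hy k j

lemma BO_dv (k : Fin n) : BO (q + 1) (pd k (hb l V 0 0)) :=
  (BO.sum Finset.univ fun m : Fin n => h.BO_dhb hD m m k).congr (R := R)
    fun _ hy => h.pd_hb00 hy k

lemma BO_dn (i j : Fin n) : BO (q + 1) fun y =>
    ∑ k, nn l k y * pd k (hb l V i.succ j.succ) y :=
  BO.sum _ fun k => (h.BO_nn k).bmul (h.BO_dhb hD i j k)

lemma BO_ht (i j : Fin n) : BO (q + 1) (ht l V i.succ j.succ) := by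
  have hv := h.BO_v hD
  have hv0 : BO 0 (hb l V 0 0) := hv.mono hD.hq.le
  have h1 : BO (q + 1) fun y => (1 / (1 + hb l V 0 0 y)) * (2 * (√(1 + hb l V 0 0 y) *
      D.K y i j) + ((pd i (hb l V 0 j.succ) y + pd j (hb l V 0 i.succ) y) +
      hb l V 0 0 y * (∑ k, nn l k y * pd k (hb l V i.succ j.succ) y))) :=
    (BO.inv_one_add hD.hq hv).bmul ((((BO.sqrt_one_add hD.hq hv).bmul (hD.K i j)).cmul 2).add
      (((h.BO_dhb0 hD j i).add (h.BO_dhb0 hD i j)).add (hv0.bmul (h.BO_dn hD i j))))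
  refine h1.congr (R := R) fun y hy => ?_
  have hp := h.one_add_pos hy
  have hsq : √(1 + hb l V 0 0 y) ≠ 0 := (Real.sqrt_pos.2 hp).ne'
  rw [h.K_eq hy]
  have e2 : √(1 + hb l V 0 0 y) * (1 / √(1 + hb l V 0 0 y) * (Lw l V i j y -
      hb l V 0 0 y / 2 * ((∑ k, nn l k y * pd k (hb l V i.succ j.succ) y) -
      ht l V i.succ j.succ y))) = Lw l V i j y -
      hb l V 0 0 y / 2 * ((∑ k, nn l k y * pd k (hb l V i.succ j.succ) y) -
      ht l V i.succ j.succ y) := by
    field_simp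
  rw [e2]
  unfold Lw
  have hp' := hp.ne'
  field_simp
  ring

lemma BO_ht00 : BO (q + 1) (ht l V 0 0) :=
  (BO.sum Finset.univ fun k : Fin n => h.BO_ht hD k k).congr (R := R) fun _ hy => h.ht00 hy

lemma BO_L (i j : Fin n) : BO (q + 1) (Lw l V i j) :=
  (((h.BO_dhb0 hD j i).add (h.BO_dhb0 hD i j)).sub (h.BO_ht hD i j)).neg.div_const 2

/-- `K` against its linear part -/
lemma BO_K_sub (i j : Fin n) : BO (2 * q + 1) fun y => D.K y i j - Lw l V i j y := by
  have hv := h.BO_v hD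
  have h1 : BO (q + (q + 1)) fun y => (1 / √(1 + hb l V 0 0 y) - 1) * Lw l V i j y :=
    (BO.inv_sqrt_sub hD.hq hv).mul (h.BO_L hD i j)
  have h2 : BO (q + (q + 1)) fun y => 1 / √(1 + hb l V 0 0 y) * ((hb l V 0 0 y *
      ((∑ k, nn l k y * pd k (hb l V i.succ j.succ) y) - ht l V i.succ j.succ y)) / 2) :=
    (BO.inv_sqrt hD.hq hv).bmul ((hv.mul ((h.BO_dn hD i j).sub (h.BO_ht hD i j))).div_const 2)
  have e : q + (q + 1) = 2 * q + 1 := by ring
  rw [e] at h1 h2
  refine (h1.sub h2).congr (R := R) fun y hy => ?_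
  rw [h.K_eq hy]
  ring

lemma BO_Knn : BO (q + 1) fun y => ∑ i, ∑ j, D.K y i j * (nn l i y * nn l j y) :=
  BO.sum _ fun i => BO.sum _ fun j => (hD.K i j).mulb (h.BO_nn2 i j)

/-- the momentum tensor against its linear part -/
theorem BO_momT_sub (i j : Fin n) :
    BO (2 * q + 1) fun y => Stmt.momT D.g D.K y i j - Pw l V i j y := by
  have hv := h.BO_v hD
  have hKn := h.BO_Knn hD
  have h1 : BO (2 * q + 1) fun y => (∑ k, (D.K y k k - Lw l V k k y)) * kd i j :=
    (BO.sum _ fun k => h.BO_K_sub hD k k).mulb (BO.const _)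
  have e : q + (q + 1) = 2 * q + 1 := by ring
  have h2 : BO (2 * q + 1) fun y => (1 / (1 + hb l V 0 0 y)) * (hb l V 0 0 y *
      ∑ i, ∑ j, D.K y i j * (nn l i y * nn l j y)) := by
    rw [← e]
    exact (BO.inv_one_add hD.hq hv).bmul (hv.mul hKn)
  have hq := hD.hq
  have hq1 : BO (q + 1) fun y => ∑ k, D.K y k k := BO.sum _ fun k => hD.K k k
  have h2' : BO (q + 1) fun y => (1 / (1 + hb l V 0 0 y)) * (hb l V 0 0 y *
      ∑ i, ∑ j, D.K y i j * (nn l i y * nn l j y)) := h2.mono (by linarith only [hq])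
  have h3 : BO (2 * q + 1) fun y => (hb l V 0 0 y * ((∑ k, D.K y k k) -
      (1 / (1 + hb l V 0 0 y)) * (hb l V 0 0 y *
      ∑ i, ∑ j, D.K y i j * (nn l i y * nn l j y)))) * (nn l i y * nn l j y) := by
    rw [← e]
    exact (hv.mul (hq1.sub h2')).mulb (h.BO_nn2 i j)
  have h4 := (((h.BO_K_sub hD i j).sub h1).add (h2.mulb (BO.const (kd i j)))).sub h3
  refine h4.congr (R := R) fun y hy => ?_
  unfold Stmt.momT Pw
  rw [h.tr_eq hy, h.g_eq hy, h.hb_eq hy, Finset.sum_sub_distrib]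
  ring

end FarK

end Vale.Agent.P366.H474.W
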